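import Mathlib

/-!
# P012 (third bound): multisets of unit fractions

`UF K x f` : the rational `x` is the sum of a multiset of at most `f` unit fractions `1 / n`,
all of whose denominators are positive multiples of `2 ^ K`.

If `f ≤ K`, repeated denominators can be merged (`1 / n + 1 / n = 1 / (n / 2)`), so that `x` is a
sum of at most `f` *distinct* unit fractions.
-/

namespace Vale.Agent.Lib.P012b

open Finset

/-- `x` is a sum of a multiset of at most `f` unit fractions with denominators divisible by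
`2 ^ K` -/
def UF (K : ℕ) (x : ℚ) (f : ℕ) : Prop :=
  ∃ s : Multiset ℕ, s.card ≤ f ∧ (∀ n ∈ s, 0 < n ∧ 2 ^ K ∣ n) ∧
    (s.map (fun n : ℕ => (1 : ℚ) / (n : ℚ))).sum = x

theorem UF.zero (K f : ℕ) : UF K 0 f :=
  ⟨0, by simp, by simp, by simp⟩

theorem UF.mono {K f g : ℕ} {x : ℚ} (h : UF K x f) (hfg : f ≤ g) : UF K x g := by
  obtain ⟨s, h1, h2, h3⟩ := h
  exact ⟨s, h1.trans hfg, h2, h3⟩

theorem UF.add {K f g : ℕ} {x y : ℚ} (hx : UF K x f) (hy : UF K y g) : UF K (x + y) (f + g) := by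
  obtain ⟨s, h1, h2, h3⟩ := hx
  obtain ⟨t, k1, k2, k3⟩ := hy
  refine ⟨s + t, ?_, ?_, ?_⟩
  · rw [Multiset.card_add]; omega
  · intro n hn
    rcases Multiset.mem_add.1 hn with hn | hn
    · exact h2 n hn
    · exact k2 n hn
  · rw [Multiset.map_add, Multiset.sum_add, h3, k3]

theorem UF.unit {K n : ℕ} (hn : 0 < n) (hK : 2 ^ K ∣ n) : UF K ((1 : ℚ) / (n : ℚ)) 1 :=
  ⟨{n}, by simp, by simpa using ⟨hn, hK⟩, by simp⟩

theorem UF.sum_four {K f : ℕ} {x : Fin 4 → ℚ} (h : ∀ i, UF K (x i) f) :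
    UF K (∑ i, x i) (4 * f) := by
  rw [Fin.sum_univ_four]
  have := ((h 0).add (h 1)).add (h 2) |>.add (h 3)
  exact this.mono (by omega)

/-- merging repeated denominators -/
theorem dedup (c : ℕ) : ∀ s : Multiset ℕ, s.card = c → (∀ n ∈ s, 0 < n ∧ 2 ^ c ∣ n) →
    ∃ S : Finset ℕ, S.card ≤ c ∧ (∀ n ∈ S, 0 < n) ∧
      ∑ n ∈ S, (1 : ℚ) / (n : ℚ) = (s.map (fun n : ℕ => (1 : ℚ) / (n : ℚ))).sum := by
  induction c with
  | zero =>
    intro s hs _
    rw [Multiset.card_eq_zero] at hs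
    subst hs
    exact ⟨∅, by simp, by simp, by simp⟩
  | succ c ih =>
    intro s hs hdiv
    by_cases hnd : s.Nodup
    · refine ⟨⟨s, hnd⟩, ?_, ?_, rfl⟩
      · show s.card ≤ c + 1
        omega
      · intro n hn
        exact (hdiv n hn).1
    · rw [Multiset.nodup_iff_ne_cons_cons] at hnd
      push Not at hnd
      obtain ⟨n, t, rfl⟩ := hnd
      have hn := hdiv n (by simp)
      obtain ⟨m, hm⟩ := hn.2
      have hm0 : 0 < m := by
        rcases Nat.eq_zero_or_pos m with h | h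
        · rw [h] at hm; omega
        · exact h
      have hcard : t.card + 1 = c := by
        simp only [Multiset.card_cons] at hs
        omega
      obtain ⟨S, h1, h2, h3⟩ := ih ((2 ^ c * m) ::ₘ t) (by simp [hcard]) (by
        intro k hk
        rcases Multiset.mem_cons.1 hk with rfl | hk
        · exact ⟨by positivity, Dvd.intro _ rfl⟩
        · have := hdiv k (by simp [hk])
          exact ⟨this.1, (pow_dvd_pow 2 (Nat.le_succ c)).trans this.2⟩)
      refine ⟨S, by omega, h2, ?_⟩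
      rw [h3]
      simp only [Multiset.map_cons, Multiset.sum_cons]
      rw [hm, ← add_assoc]
      congr 1
      have hmq : (m : ℚ) ≠ 0 := by exact_mod_cast hm0.ne'
      push_cast
      field_simp
      ring

theorem UF.finset {K f : ℕ} {x : ℚ} (h : UF K x f) (hfK : f ≤ K) :
    ∃ S : Finset ℕ, S.card ≤ f ∧ (∀ n ∈ S, 0 < n) ∧ ∑ n ∈ S, (1 : ℚ) / (n : ℚ) = x := by
  obtain ⟨s, h1, h2, h3⟩ := h
  obtain ⟨S, k1, k2, k3⟩ := dedup s.card s rfl (fun n hn =>
    ⟨(h2 n hn).1, (pow_dvd_pow 2 (h1.trans hfK)).trans (h2 n hn).2⟩)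
  exact ⟨S, k1.trans h1, k2, k3.trans h3⟩

end Vale.Agent.Lib.P012b
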