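import Mathlib
import Vale.Agent.Lib.P012.Defs
import Vale.Agent.Lib.P012.Defs2
import Vale.Agent.Lib.P012b.UF

/-!
# P012 (third bound): blocks and atoms

`Blk K N M f` : for every positive multiple `D` of `2 ^ K * N` and every `m ≤ M` the fraction
`m / D` is a sum of at most `f` unit fractions (denominators divisible by `2 ^ K`).

`Atom P g` : some sum of four positive divisors of `P` is a multiple of `g`.  Then `g / D` is a sum
of four unit fractions for every multiple `D` of `P`, although `g` need not divide `D`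
(scaling trick: `g / D = s / (D * (s / g))`).
-/

namespace Vale.Agent.Lib.P012b

open Finset Vale.Agent.Lib.P012

def Blk (K N M f : ℕ) : Prop :=
  ∀ D : ℕ, 0 < D → 2 ^ K * N ∣ D → ∀ m ≤ M, UF K ((m : ℚ) / (D : ℚ)) f

def Atom (P g : ℕ) : Prop :=
  0 < g ∧ ∃ d : Fin 4 → ℕ, (∀ i, d i ∣ P) ∧ (∀ i, 0 < d i) ∧ g ∣ ∑ i, d i

/-- a divisor `d` of `N` over a multiple `D` of `2 ^ K * N`, scaled by `E` -/
theorem uf_dvd {K N D d E : ℕ} (hD : 0 < D) (hND : 2 ^ K * N ∣ D) (hd : d ∣ N) (hd0 : 0 < d)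
    (hE : 0 < E) : UF K ((d : ℚ) / ((D : ℚ) * (E : ℚ))) 1 := by
  obtain ⟨u, rfl⟩ := hd
  obtain ⟨v, rfl⟩ := hND
  have hu : 0 < u := by
    rcases Nat.eq_zero_or_pos u with h | h
    · subst h; simp at hD
    · exact h
  have hv : 0 < v := by
    rcases Nat.eq_zero_or_pos v with h | h
    · subst h; simp at hD
    · exact h
  have h := UF.unit (K := K) (n := 2 ^ K * (u * v * E)) (by positivity) (Dvd.intro _ rfl)
  have e : (1 : ℚ) / ((2 ^ K * (u * v * E) : ℕ) : ℚ)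
      = (d : ℚ) / (((2 ^ K * (d * u) * v : ℕ) : ℚ) * (E : ℚ)) := by
    have h1 : (d : ℚ) ≠ 0 := by exact_mod_cast hd0.ne'
    have h2 : (u : ℚ) ≠ 0 := by exact_mod_cast hu.ne'
    have h3 : (v : ℚ) ≠ 0 := by exact_mod_cast hv.ne'
    have h4 : (E : ℚ) ≠ 0 := by exact_mod_cast hE.ne'
    push_cast
    field_simp
  rw [← e]
  exact h

theorem Atom.uf {K P g D : ℕ} (h : Atom P g) (hD : 0 < D) (hPD : 2 ^ K * P ∣ D) :
    UF K ((g : ℚ) / (D : ℚ)) 4 := by
  obtain ⟨hg, d, hd, hd0, E, hE⟩ := h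
  have hs : 0 < ∑ i, d i := by
    rw [Fin.sum_univ_four]
    have := hd0 0
    omega
  have hE0 : 0 < E := by
    rcases Nat.eq_zero_or_pos E with h | h
    · subst h
      rw [mul_zero] at hE
      omega
    · exact h
  have key : (g : ℚ) / (D : ℚ) = ∑ i, (d i : ℚ) / ((D : ℚ) * (E : ℚ)) := by
    rw [← Finset.sum_div]
    have : ((∑ i, d i : ℕ) : ℚ) = (g : ℚ) * (E : ℚ) := by rw [hE]; push_cast; ring
    rw [← Nat.cast_sum, this]
    have h1 : (D : ℚ) ≠ 0 := by exact_mod_cast hD.ne'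
    have h4 : (E : ℚ) ≠ 0 := by exact_mod_cast hE0.ne'
    field_simp
  rw [key]
  exact (UF.sum_four (fun i => uf_dvd hD hPD (hd i) (hd0 i) hE0)).mono (by omega)

theorem Blk.mono {K N M f g : ℕ} (h : Blk K N M f) (hfg : f ≤ g) : Blk K N M g :=
  fun D hD hND m hm => (h D hD hND m hm).mono hfg

theorem Blk.mono_dvd {K N N' M f : ℕ} (h : Blk K N M f) (hd : N ∣ N') : Blk K N' M f :=
  fun D hD hND m hm => h D hD ((Nat.mul_dvd_mul_left _ hd).trans hND) m hm

theorem uf_sum_divisors {K N D : ℕ} (hD : 0 < D) (hND : 2 ^ K * N ∣ D) (S : Finset ℕ) :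
    (∀ d ∈ S, d ∣ N ∧ 0 < d) → UF K (((∑ d ∈ S, d : ℕ) : ℚ) / (D : ℚ)) S.card := by
  induction S using Finset.induction_on with
  | empty =>
    intro _
    simpa using UF.zero K 0
  | insert a S ha ih =>
    intro h
    have h1 := ih (fun d hd => h d (Finset.mem_insert_of_mem hd))
    have h2 := h a (Finset.mem_insert_self _ _)
    have h3 := uf_dvd (E := 1) hD hND h2.1 h2.2 Nat.one_pos
    rw [Finset.sum_insert ha, Finset.card_insert_of_notMem ha]
    have e : ((a + ∑ d ∈ S, d : ℕ) : ℚ) / (D : ℚ)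
        = ((∑ d ∈ S, d : ℕ) : ℚ) / (D : ℚ) + (a : ℚ) / ((D : ℚ) * ((1 : ℕ) : ℚ)) := by
      push_cast
      ring
    rw [e]
    exact h1.add h3

theorem Blk.of_repUpTo {K N M f : ℕ} (h : RepUpTo N M f) : Blk K N M f := by
  intro D hD hND m hm
  obtain ⟨S, hS, hc, hs⟩ := h m hm
  have := uf_sum_divisors hD hND S (fun d hd =>
    ⟨Nat.dvd_of_mem_divisors (hS hd), Nat.pos_of_mem_divisors (hS hd)⟩)
  rw [hs] at this
  exact this.mono hc

/-- the multiplicative step, with atoms in place of divisors; no coprimality is needed -/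
theorem Blk.step {K N M f P q : ℕ} (h : Blk K N M f) (hP : P ∣ N) (hq : 0 < q)
    (hcov : ∀ c : ℕ, ∃ g : Fin 4 → ℕ, (∀ j, Atom P (g j)) ∧ ∑ j, g j ≤ M ∧
      ∑ j, g j ≡ c [MOD q]) :
    Blk K (N * q) (M * q) (f + 16) := by
  intro D hD hND m hm
  have hND' : 2 ^ K * N ∣ D := (Dvd.intro q (by ring)).trans hND
  by_cases hmM : m ≤ M
  · exact (h D hD hND' m hmM).mono (by omega)
  · obtain ⟨g, hg, hgM, hgc⟩ := hcov m
    have hlt : ∑ j, g j ≤ m := by omega
    obtain ⟨m', hm'⟩ : q ∣ m - ∑ j, g j := (Nat.modEq_iff_dvd' hlt).1 hgc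
    have hmeq : m = ∑ j, g j + q * m' := by omega
    have hm'M : m' ≤ M := by
      have h1 : q * m' ≤ q * M := by
        calc q * m' ≤ m := by omega
          _ ≤ M * q := hm
          _ = q * M := mul_comm _ _
      exact Nat.le_of_mul_le_mul_left h1 hq
    obtain ⟨v, hv⟩ := hND
    have hv0 : 0 < v := by
      rcases Nat.eq_zero_or_pos v with h0 | h0
      · subst h0; simp at hv; omega
      · exact h0
    have hN0 : 0 < N := by
      rcases Nat.eq_zero_or_pos N with h0 | h0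
      · subst h0; simp at hv; omega
      · exact h0
    have hD' : 0 < 2 ^ K * N * v := by positivity
    have h1 := h (2 ^ K * N * v) hD' (Dvd.intro _ rfl) m' hm'M
    have h2 : UF K (∑ j, (g j : ℚ) / (D : ℚ)) (4 * 4) :=
      UF.sum_four (fun j => (hg j).uf hD ((Nat.mul_dvd_mul_left _ hP).trans hND'))
    have e : (m : ℚ) / (D : ℚ)
        = (m' : ℚ) / ((2 ^ K * N * v : ℕ) : ℚ) + ∑ j, (g j : ℚ) / (D : ℚ) := by
      rw [← Finset.sum_div, ← Nat.cast_sum, hmeq, hv]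
      have a1 : (q : ℚ) ≠ 0 := by exact_mod_cast hq.ne'
      have a2 : (v : ℚ) ≠ 0 := by exact_mod_cast hv0.ne'
      have a3 : (N : ℚ) ≠ 0 := by exact_mod_cast hN0.ne'
      push_cast
      field_simp
      ring
    rw [e]
    exact (h1.add h2).mono (by omega)

theorem Blk.iter {K N M f P q : ℕ} (h : Blk K N M f) (hP : P ∣ N) (hq : 0 < q)
    (hcov : ∀ c : ℕ, ∃ g : Fin 4 → ℕ, (∀ j, Atom P (g j)) ∧ ∑ j, g j ≤ M ∧
      ∑ j, g j ≡ c [MOD q]) (n : ℕ) :
    Blk K (N * q ^ n) (M * q ^ n) (f + 16 * n) := by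
  induction n with
  | zero => simpa using h
  | succ n ih =>
    have h1 := Blk.step ih (hP.trans (Dvd.intro _ rfl)) hq (fun c => by
      obtain ⟨g, a, b, c'⟩ := hcov c
      exact ⟨g, a, b.trans (Nat.le_mul_of_pos_right _ (by positivity)), c'⟩)
    have e1 : N * q ^ n * q = N * q ^ (n + 1) := by ring
    have e2 : M * q ^ n * q = M * q ^ (n + 1) := by ring
    have e3 : f + 16 * n + 16 = f + 16 * (n + 1) := by ring
    rw [e1, e2, e3] at h1
    exact h1

/-- a small fraction `p / c` with `c ≤ M` and `p / c ≤ M / (2 ^ K * N)` -/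
theorem Blk.tail {K N M f p c : ℕ} (h : Blk K N M f) (hN0 : 0 < N) (hc0 : 0 < c) (hcM : c ≤ M)
    (hpN : p * (2 ^ K * N) ≤ M * c) : UF K ((p : ℚ) / (c : ℚ)) (2 * f) := by
  obtain ⟨T, hT⟩ : ∃ T, T = 2 ^ K * N := ⟨_, rfl⟩
  rw [← hT] at hpN
  have hT0 : 0 < T := by rw [hT]; positivity
  set Q := p * T / c with hQ
  set r := p * T % c with hr
  have hdiv : c * Q + r = p * T := Nat.div_add_mod (p * T) c
  have hrb : r < c := Nat.mod_lt _ hc0
  have hQM : Q ≤ M := by
    rw [hQ]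
    exact Nat.div_le_of_le_mul (by rw [mul_comm c M]; exact hpN)
  have h1 := h T hT0 (by rw [hT]) Q hQM
  have h2 := h (c * T) (by positivity) (by rw [hT]; exact Dvd.intro_left _ rfl) r (by omega)
  have e : (p : ℚ) / (c : ℚ) = (Q : ℚ) / (T : ℚ) + (r : ℚ) / ((c * T : ℕ) : ℚ) := by
    have a1 : (c : ℚ) ≠ 0 := by exact_mod_cast hc0.ne'
    have a2 : (T : ℚ) ≠ 0 := by exact_mod_cast hT0.ne'
    have hq : (c : ℚ) * Q + r = p * T := by exact_mod_cast hdiv
    push_cast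
    field_simp
    linarith
  rw [e]
  exact (h1.add h2).mono (by omega)

end Vale.Agent.Lib.P012b
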