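import Mathlib
import Vale.Agent.Lib.P012.Defs
import Vale.Agent.Lib.P012.Defs2
import Vale.Agent.Lib.P012.Params
import Vale.Agent.Lib.P012.ParamH2
import Vale.Agent.Lib.P012.Pool
import Vale.Agent.Lib.P012.Selection
import Vale.Agent.Lib.P012.MainIneq
import Vale.Agent.Lib.P012.Cover
import Vale.Agent.Lib.P012.StepThm
import Vale.Agent.Lib.P012.StepThm2
import Vale.Agent.Lib.P012b.Blk

/-!
# P012 (third bound): a large virtual universe of primes all of whose small products are atoms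
-/

namespace Vale.Agent.Lib.P012b

open Finset Vale.Agent.Lib.P012

theorem atoms_exist (κ W ρ : ℕ) (Us : Finset ℕ)
    (hUs : ∀ p ∈ Us, p.Prime ∧ p ≤ 2 ^ (9 * κ + 24)) (hUc : Us.card = W) (hW : W ≤ 2 ^ κ)
    (hρ : 4 + ρ * (54 * κ + 145) ≤ 4 * W) :
    ∃ G : Finset ℕ, (∀ ℓ ∈ G, ℓ.Prime ∧ 2 ^ (9 * κ + 24) < ℓ ∧ ℓ ≤ 2 ^ (18 * κ + 48)) ∧
      G.card = 2 ^ κ ∧
      ∀ τ ⊆ G, τ.card ≤ ρ → Atom ((∏ p ∈ Us, p) * ∏ p ∈ Us, p) (∏ ℓ ∈ τ, ℓ) := by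
  obtain ⟨z, hz⟩ : ∃ z, z = 2 ^ (9 * κ + 24) := ⟨_, rfl⟩
  obtain ⟨Z, hZ⟩ : ∃ Z, Z = 2 ^ (18 * κ + 48) := ⟨_, rfl⟩
  obtain ⟨U, hU⟩ : ∃ U, U = ∏ p ∈ Us, p := ⟨_, rfl⟩
  have pU : ∀ p ∈ Us, p.Prime := fun p hp => (hUs p hp).1
  have hU0 : 0 < U := by rw [hU]; exact Finset.prod_pos (fun p hp => (pU p hp).pos)
  have hz1 : 1 ≤ z := by rw [hz]; exact Nat.one_le_two_pow
  obtain ⟨X, hX⟩ : ∃ X, X = U.divisors := ⟨_, rfl⟩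
  have hXc : X.card = 2 ^ W := by rw [hX, hU, card_divisors_prod Us pU, hUc]
  have hUle : U ≤ z ^ (2 ^ κ) := by
    calc U ≤ z ^ Us.card := by
          rw [hU]
          exact Finset.prod_le_pow_card _ _ _ (fun p hp => by rw [hz]; exact (hUs p hp).2)
      _ ≤ z ^ (2 ^ κ) := Nat.pow_le_pow_right hz1 (by omega)
  have hXle : ∀ x ∈ X, x ≤ z ^ (2 ^ κ) := fun x hx =>
    (Nat.divisor_le (hX ▸ hx)).trans hUle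
  obtain ⟨Q, hQ⟩ : ∃ Q, Q = ((Finset.Ioc (2 ^ (9 * κ + 24)) (2 ^ (18 * κ + 48))).filter Nat.Prime)
      \ (∅ : Finset ℕ) := ⟨_, rfl⟩
  have hQcard := pool_card κ ∅ (by simp)
  rw [← hQ] at hQcard
  have hQmem : ∀ ℓ ∈ Q, ℓ.Prime ∧ z < ℓ ∧ ℓ ≤ Z := by
    intro ℓ hℓ
    rw [hQ, Finset.mem_sdiff, Finset.mem_filter, Finset.mem_Ioc] at hℓ
    rw [hz, hZ]
    exact ⟨hℓ.1.2, hℓ.1.1.1, hℓ.1.1.2⟩
  have hr2 : 2 * 2 ^ κ ≤ Q.card := by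
    have h1 : ((2 * 2 ^ κ : ℕ) : ℝ) ≤ (Q.card : ℝ) := by
      refine le_trans ?_ ((pool_two_rk κ).trans hQcard)
      push_cast
      exact le_rfl
    exact_mod_cast h1
  obtain ⟨G, hGQ, hGc, hcol⟩ := selection X X Q z (2 ^ κ) (2 ^ κ)
    (fun ℓ hℓ => ⟨(hQmem ℓ hℓ).1, (hQmem ℓ hℓ).2.1⟩) hXle hXle
    (Nat.two_pow_pos κ) (Nat.two_pow_pos κ) hr2
  refine ⟨G, fun ℓ hℓ => ?_, hGc, ?_⟩
  · rw [← hz, ← hZ]; exact hQmem ℓ (hGQ hℓ)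
  intro τ hτ hτc
  rw [← hU]
  have hτp : ∀ ℓ ∈ τ, ℓ.Prime := fun ℓ hℓ => (hQmem ℓ (hGQ (hτ hℓ))).1
  obtain ⟨B, hB⟩ : ∃ B : ℝ, B = 2 * ((2 ^ κ : ℕ) : ℝ) * ((2 ^ κ : ℕ) : ℝ) / (Q.card : ℝ) := ⟨_, rfl⟩
  rw [← hB] at hcol
  have a1 : (0 : ℝ) ≤ B := by
    rw [hB]
    exact div_nonneg (mul_nonneg (mul_nonneg zero_le_two (Nat.cast_nonneg _)) (Nat.cast_nonneg _))
      (Nat.cast_nonneg _)
  have a2 : 1 ≤ Z := by rw [hZ]; exact Nat.one_le_two_pow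
  have a3 : 0 < 2 ^ W := Nat.two_pow_pos W
  have a4 : 16 * 2 ^ τ.card * Z ^ (3 * τ.card) ≤ (2 ^ W) ^ 4 := by
    rw [hZ]
    refine param_h1' κ W τ.card (2 ^ W) ?_ le_rfl
    have : τ.card * (54 * κ + 145) ≤ ρ * (54 * κ + 145) := Nat.mul_le_mul_right _ hτc
    omega
  have hτκ : τ.card ≤ 2 ^ κ := by
    rw [← hGc]; exact Finset.card_le_card hτ
  have a5 : (τ.card : ℝ) * (Z : ℝ) ^ 3 * B ^ 4 ≤ 1 / 65536 := by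
    have h5 := param_h2 κ (2 ^ κ) _ le_rfl hQcard
    rw [← hZ, ← hB] at h5
    refine le_trans ?_ h5
    have : (τ.card : ℝ) ≤ ((2 ^ κ : ℕ) : ℝ) := Nat.cast_le.2 hτκ
    exact mul_le_mul_of_nonneg_right (mul_le_mul_of_nonneg_right this
      (pow_nonneg (Nat.cast_nonneg _) 3)) (pow_nonneg a1 4)
  have hmain := main_ineq τ X X (2 ^ W) Z τ.card B a1 a2 hXc hXc a3 rfl
    (fun ℓ hℓ => (hQmem ℓ (hGQ (hτ hℓ))).2.2) (fun σ hσ => hcol σ (hσ.trans hτ)) a4 a5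
  obtain ⟨x, y, hx, hy, hxy⟩ := cover_of_col τ X X hτp (fun _ => 1)
    (fun _ ℓ hℓ hd => (hτp ℓ hℓ).one_lt.ne' (Nat.dvd_one.1 hd)) hmain 0
  refine ⟨Finset.prod_pos (fun ℓ hℓ => (hτp ℓ hℓ).pos), fun i => 1 * x i * y i, ?_, ?_, ?_⟩
  · intro i
    show 1 * x i * y i ∣ U * U
    rw [one_mul]
    exact mul_dvd_mul (Nat.dvd_of_mem_divisors (hX ▸ hx i)) (Nat.dvd_of_mem_divisors (hX ▸ hy i))
  · intro i
    show 0 < 1 * x i * y i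
    rw [one_mul]
    exact Nat.mul_pos (Nat.pos_of_mem_divisors (hX ▸ hx i)) (Nat.pos_of_mem_divisors (hX ▸ hy i))
  · exact (Nat.modEq_zero_iff_dvd).1 hxy

end Vale.Agent.Lib.P012b
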