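import Mathlib
import Vale.Agent.Lib.P012.Defs
import Vale.Agent.Lib.P012.Defs2
import Vale.Agent.Lib.P012.Choose
import Vale.Agent.Lib.P012.Params
import Vale.Agent.Lib.P012.ParamH2
import Vale.Agent.Lib.P012.Pool
import Vale.Agent.Lib.P012.Selection
import Vale.Agent.Lib.P012.MainIneq
import Vale.Agent.Lib.P012.Cover
import Vale.Agent.Lib.P012.StepThm
import Vale.Agent.Lib.P012.StepThm2
import Vale.Agent.Lib.P012b.Blk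

/-!
# P012 (third bound): residues modulo a product of new primes are covered by sums of four products
`x * y`, `x ∈ prodFam Uv A`, `y ∈ prodFam Wv A`
-/

namespace Vale.Agent.Lib.P012b

open Finset Vale.Agent.Lib.P012

theorem step_virtual (κ A e r : ℕ) (Uv Wv : Finset ℕ)
    (hUv : ∀ p ∈ Uv, p.Prime ∧ p ≤ 2 ^ (18 * κ + 48))
    (hWv : ∀ p ∈ Wv, p.Prime ∧ p ≤ 2 ^ (18 * κ + 48))
    (hUc : Uv.card = 2 ^ (κ - 1)) (hWc : Wv.card = 2 ^ (κ - 1))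
    (hA : 2 * A ≤ 2 ^ κ) (he : 2 ^ e ≤ (2 ^ (κ - 1)).choose A)
    (hr : 4 + r * (54 * κ + 145) ≤ 4 * e) (hr0 : 0 < r) :
    ∃ q : ℕ, (2 ^ (9 * κ + 24)) ^ r ≤ q ∧
      ∀ c : ℕ, ∃ x y : Fin 4 → ℕ, (∀ i, x i ∈ prodFam Uv A) ∧ (∀ i, y i ∈ prodFam Wv A) ∧
        ∑ i, x i * y i ≡ c [MOD q] := by
  have pU : ∀ p ∈ Uv, p.Prime := fun p hp => (hUv p hp).1
  have pW : ∀ p ∈ Wv, p.Prime := fun p hp => (hWv p hp).1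
  obtain ⟨z, hz⟩ : ∃ z, z = 2 ^ (9 * κ + 24) := ⟨_, rfl⟩
  obtain ⟨Z, hZ⟩ : ∃ Z, Z = 2 ^ (18 * κ + 48) := ⟨_, rfl⟩
  have hz1 : 1 ≤ z := by rw [hz]; exact Nat.one_le_two_pow
  have hzZ : z ^ 2 = Z := by
    rw [hz, hZ, ← pow_mul]; congr 1; ring
  have hZA : Z ^ A ≤ z ^ (2 ^ κ) := by
    rw [← hzZ, ← pow_mul]
    exact Nat.pow_le_pow_right hz1 hA
  obtain ⟨V, hV⟩ : ∃ V, V = (2 ^ (κ - 1)).choose A := ⟨_, rfl⟩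
  rw [← hV] at he
  obtain ⟨X, hX⟩ : ∃ X, X = prodFam Uv A := ⟨_, rfl⟩
  obtain ⟨Y, hY⟩ : ∃ Y, Y = prodFam Wv A := ⟨_, rfl⟩
  have hXc : X.card = V := by rw [hX, card_prodFam Uv pU, hUc, hV]
  have hYc : Y.card = V := by rw [hY, card_prodFam Wv pW, hWc, hV]
  have hXle : ∀ x ∈ X, x ≤ Z ^ A := fun x hx =>
    prodFam_le (fun p hp => by rw [hZ]; exact (hUv p hp).2) (hX ▸ hx)
  have hYle : ∀ y ∈ Y, y ≤ Z ^ A := fun y hy =>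
    prodFam_le (fun p hp => by rw [hZ]; exact (hWv p hp).2) (hY ▸ hy)
  have he2 : e ≤ 2 ^ (κ - 1) := by
    have h1 : 2 ^ e ≤ 2 ^ (2 ^ (κ - 1)) := he.trans (by rw [hV]; exact Nat.choose_le_two_pow _ _)
    exact (Nat.pow_le_pow_iff_right (by norm_num)).1 h1
  have hκ1 : 2 ^ (κ - 1) ≤ 2 ^ κ := Nat.pow_le_pow_right (by norm_num) (by omega)
  have hrk : r ≤ 2 ^ κ := by
    have h1 : r * 4 ≤ r * (54 * κ + 145) := Nat.mul_le_mul_left _ (by omega)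
    omega
  obtain ⟨Q, hQ⟩ : ∃ Q, Q = ((Finset.Ioc (2 ^ (9 * κ + 24)) (2 ^ (18 * κ + 48))).filter Nat.Prime)
      \ (∅ : Finset ℕ) := ⟨_, rfl⟩
  have hQcard := pool_card κ ∅ (by simp)
  rw [← hQ] at hQcard
  have hQmem : ∀ ℓ ∈ Q, ℓ.Prime ∧ z < ℓ ∧ ℓ ≤ Z := by
    intro ℓ hℓ
    rw [hQ, Finset.mem_sdiff, Finset.mem_filter, Finset.mem_Ioc] at hℓ
    rw [hz, hZ]
    exact ⟨hℓ.1.2, hℓ.1.1.1, hℓ.1.1.2⟩
  have hr2 : 2 * r ≤ Q.card := by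
    have h1 : ((2 * r : ℕ) : ℝ) ≤ (Q.card : ℝ) := by
      refine le_trans ?_ ((pool_two_rk κ).trans hQcard)
      have : (r : ℝ) ≤ 2 ^ κ := by exact_mod_cast hrk
      push_cast
      linarith
    exact_mod_cast h1
  obtain ⟨Λ, hΛQ, hΛc, hcol⟩ := selection X Y Q z (2 ^ κ) r
    (fun ℓ hℓ => ⟨(hQmem ℓ hℓ).1, (hQmem ℓ hℓ).2.1⟩)
    (fun x hx => (hXle x hx).trans hZA) (fun y hy => (hYle y hy).trans hZA)
    (Nat.two_pow_pos κ) hr0 hr2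
  have hΛp : ∀ ℓ ∈ Λ, ℓ.Prime := fun ℓ hℓ => (hQmem ℓ (hΛQ hℓ)).1
  have a1 : (0 : ℝ) ≤ 2 * ((2 ^ κ : ℕ) : ℝ) * (r : ℝ) / (Q.card : ℝ) :=
    div_nonneg (mul_nonneg (mul_nonneg zero_le_two (Nat.cast_nonneg _)) (Nat.cast_nonneg _))
      (Nat.cast_nonneg _)
  have a2 : 1 ≤ Z := by rw [hZ]; exact Nat.one_le_two_pow
  have a3 : 0 < V := lt_of_lt_of_le (Nat.two_pow_pos e) he
  have a4 : 16 * 2 ^ r * Z ^ (3 * r) ≤ V ^ 4 := by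
    rw [hZ]; exact param_h1' κ e r V hr he
  have a5 : (r : ℝ) * (Z : ℝ) ^ 3 * (2 * ((2 ^ κ : ℕ) : ℝ) * (r : ℝ) / (Q.card : ℝ)) ^ 4
      ≤ 1 / 65536 := by
    rw [hZ]; exact param_h2 κ r _ hrk hQcard
  have hmain := main_ineq Λ X Y V Z r (2 * ((2 ^ κ : ℕ) : ℝ) * (r : ℝ) / (Q.card : ℝ))
    a1 a2 hXc hYc a3 hΛc (fun ℓ hℓ => (hQmem ℓ (hΛQ hℓ)).2.2) hcol a4 a5
  refine ⟨∏ ℓ ∈ Λ, ℓ, ?_, ?_⟩
  · rw [← hΛc, ← hz]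
    exact Finset.pow_card_le_prod _ _ _ (fun p hp => (hQmem p (hΛQ hp)).2.1.le)
  · intro c
    obtain ⟨x, y, hx, hy, hxy⟩ := cover_of_col Λ X Y hΛp (fun _ => 1)
      (fun _ ℓ hℓ hd => (hΛp ℓ hℓ).one_lt.ne' (Nat.dvd_one.1 hd)) hmain c
    refine ⟨x, y, fun i => hX ▸ hx i, fun i => hY ▸ hy i, ?_⟩
    have e1 : ∑ i, x i * y i = ∑ i, 1 * x i * y i :=
      Finset.sum_congr rfl (fun i _ => by rw [one_mul])
    rw [e1]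
    exact hxy

end Vale.Agent.Lib.P012b
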