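import Mathlib
import Vale.Agent.Lib.P012.Defs
import Vale.Agent.Lib.P012.Defs2
import Vale.Agent.Lib.P012.Choose
import Vale.Agent.Lib.P012.Phases
import Vale.Agent.Lib.P012b.Blk
import Vale.Agent.Lib.P012b.StepV

/-!
# P012 (third bound): the chain with a virtual universe
-/

namespace Vale.Agent.Lib.P012b

open Finset Vale.Agent.Lib.P012

/-- the virtual universe: two disjoint sets of `2 ^ (κ - 1)` primes such that every product of at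
most `ρ` of them is an atom for `P` -/
def UniV (κ ρ P : ℕ) (Uv Wv : Finset ℕ) : Prop :=
  (∀ p ∈ Uv, p.Prime ∧ p ≤ 2 ^ (18 * κ + 48)) ∧ (∀ p ∈ Wv, p.Prime ∧ p ≤ 2 ^ (18 * κ + 48)) ∧
  Disjoint Uv Wv ∧ Uv.card = 2 ^ (κ - 1) ∧ Wv.card = 2 ^ (κ - 1) ∧
  ∀ τ ⊆ Uv ∪ Wv, τ.card ≤ ρ → Atom P (∏ ℓ ∈ τ, ℓ)

/-- the state of the chain: the gap `Γ` is fixed -/
def StV (κ K Γ μ f : ℕ) : Prop :=
  ∃ M, (2 ^ (9 * κ + 24)) ^ μ ≤ M ∧ Blk K (Γ * M) M f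

theorem StV.mono {κ K Γ μ f μ' f' : ℕ} (h : StV κ K Γ μ f) (hμ : μ' ≤ μ) (hf : f ≤ f') :
    StV κ K Γ μ' f' := by
  obtain ⟨M, h1, h2⟩ := h
  exact ⟨M, (Nat.pow_le_pow_right Nat.one_le_two_pow hμ).trans h1, h2.mono hf⟩

theorem chain_iterV (κ K Γ ρ P : ℕ) (Uv Wv : Finset ℕ) (hU : UniV κ ρ P Uv Wv) (hPΓ : P ∣ Γ)
    (A e r : ℕ) (hAρ : 2 * A ≤ ρ) (hA : 2 * A ≤ 2 ^ κ) (he : 2 ^ e ≤ (2 ^ (κ - 1)).choose A)
    (hr : 4 + r * (54 * κ + 145) ≤ 4 * e) (hr0 : 0 < r) (μ f : ℕ) (hSt : StV κ K Γ μ f)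
    (hμ : 4 * A + 2 ≤ μ) (n : ℕ) : StV κ K Γ (μ + n * r) (f + 16 * n) := by
  obtain ⟨hUv, hWv, hdisj, hUc, hWc, hatom⟩ := hU
  obtain ⟨M, hM, hblk⟩ := hSt
  obtain ⟨q, hq, hcov⟩ := step_virtual κ A e r Uv Wv hUv hWv hUc hWc hA he hr hr0
  obtain ⟨z, hz⟩ : ∃ z, z = 2 ^ (9 * κ + 24) := ⟨_, rfl⟩
  obtain ⟨Z, hZ⟩ : ∃ Z, Z = 2 ^ (18 * κ + 48) := ⟨_, rfl⟩
  rw [← hz] at hq hM
  have hz1 : 1 ≤ z := by rw [hz]; exact Nat.one_le_two_pow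
  have hz2 : 2 ≤ z := by
    rw [hz]
    calc 2 = 2 ^ 1 := by norm_num
      _ ≤ 2 ^ (9 * κ + 24) := Nat.pow_le_pow_right (by norm_num) (by omega)
  have hzZ : z ^ 2 = Z := by
    rw [hz, hZ, ← pow_mul]; congr 1; ring
  have hq0 : 0 < q := lt_of_lt_of_le (Nat.pow_pos (by omega)) hq
  have hcov' : ∀ c : ℕ, ∃ g : Fin 4 → ℕ, (∀ j, Atom P (g j)) ∧ ∑ j, g j ≤ M ∧
      ∑ j, g j ≡ c [MOD q] := by
    intro c
    obtain ⟨x, y, hx, hy, hxy⟩ := hcov c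
    refine ⟨fun i => x i * y i, ?_, ?_, hxy⟩
    · intro j
      have hxj := hx j
      have hyj := hy j
      unfold prodFam at hxj hyj
      obtain ⟨S, hS, hSx⟩ := Finset.mem_image.1 hxj
      obtain ⟨T, hT, hTy⟩ := Finset.mem_image.1 hyj
      obtain ⟨hSU, hSc⟩ := Finset.mem_powersetCard.1 hS
      obtain ⟨hTW, hTc⟩ := Finset.mem_powersetCard.1 hT
      have hST : Disjoint S T := Finset.disjoint_of_subset_left hSU
        (Finset.disjoint_of_subset_right hTW hdisj)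
      have e1 : x j * y j = ∏ ℓ ∈ S ∪ T, ℓ := by
        rw [Finset.prod_union hST, hSx, hTy]
      show Atom P (x j * y j)
      rw [e1]
      apply hatom
      · exact Finset.union_subset_union hSU hTW
      · rw [Finset.card_union_of_disjoint hST, hSc, hTc]
        omega
    · have hb : ∀ i, x i * y i ≤ Z ^ A * Z ^ A := fun i =>
        Nat.mul_le_mul (prodFam_le (fun p hp => by rw [hZ]; exact (hUv p hp).2) (hx i))
          (prodFam_le (fun p hp => by rw [hZ]; exact (hWv p hp).2) (hy i))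
      calc ∑ i, x i * y i ≤ ∑ _i : Fin 4, Z ^ A * Z ^ A := Finset.sum_le_sum (fun i _ => hb i)
        _ = 4 * (Z ^ A * Z ^ A) := by simp
        _ ≤ z ^ 2 * (Z ^ A * Z ^ A) := by
            apply Nat.mul_le_mul_right
            nlinarith
        _ = z ^ (4 * A + 2) := by
            rw [← hzZ]; ring
        _ ≤ z ^ μ := Nat.pow_le_pow_right hz1 hμ
        _ ≤ M := hM
  have h1 := Blk.iter hblk (hPΓ.trans (Dvd.intro _ rfl)) hq0 hcov' n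
  refine ⟨M * q ^ n, ?_, ?_⟩
  · rw [← hz]
    calc z ^ (μ + n * r) = z ^ μ * (z ^ r) ^ n := by rw [pow_add, ← pow_mul, mul_comm n r]
      _ ≤ M * q ^ n := Nat.mul_le_mul hM (Nat.pow_le_pow_left hq n)
  · rw [← mul_assoc]
    exact h1

theorem nK_le (κ i : ℕ) (hκ : 18 ≤ κ) (hi : 2 * i + 3 ≤ κ) : nK κ i ≤ 237 := by
  unfold nK
  have h1 : 2 * (54 * κ + 145) / (κ - 1 - i) ≤ 236 := by
    apply Nat.div_le_of_le_mul
    obtain ⟨j, hj⟩ : ∃ j, j = κ - 1 - i := ⟨_, rfl⟩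
    rw [← hj]
    omega
  omega

theorem phasesV (κ K Γ ρ P : ℕ) (hκ : 18 ≤ κ) (Uv Wv : Finset ℕ) (hU : UniV κ ρ P Uv Wv)
    (hPΓ : P ∣ Γ) (i₀ j f₁ : ℕ) (hi₀ : 54 * κ + 145 ≤ 2 ^ i₀) (hj : 2 * 2 ^ j ≤ ρ)
    (hjκ : 2 * j + 3 ≤ κ) (hSt₀ : StV κ K Γ (4 * 2 ^ i₀ + 8) f₁) :
    ∀ i, i₀ ≤ i → i ≤ j → StV κ K Γ (4 * 2 ^ i + 8) (f₁ + 3792 * (i - i₀)) := by
  intro i hi
  induction i, hi using Nat.le_induction with
  | base =>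
    intro _
    simpa using hSt₀
  | succ i hi ih =>
    intro hij
    have hSt := ih (by omega)
    have hi2 : 54 * κ + 145 ≤ 2 ^ i := hi₀.trans (Nat.pow_le_pow_right (by norm_num) hi)
    obtain ⟨p1, p2, p3, p4, p5⟩ := phase_params κ i hi2 (by omega)
    have hpow : 2 ^ i ≤ 2 ^ j := Nat.pow_le_pow_right (by norm_num) (by omega)
    have hpow2 : 2 * 2 ^ i ≤ 2 ^ κ := by
      calc 2 * 2 ^ i = 2 ^ (i + 1) := by ring
        _ ≤ 2 ^ κ := Nat.pow_le_pow_right (by norm_num) (by omega)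
    have h1 := chain_iterV κ K Γ ρ P Uv Wv hU hPΓ (2 ^ i) (eK κ i) (rK κ i) (by omega) hpow2
      (two_pow_le_choose κ i (by omega)) p1 p2 _ _ hSt (by omega) (nK κ i)
    have hn := nK_le κ i hκ (by omega)
    have e1 : 2 ^ (i + 1) = 2 * 2 ^ i := by ring
    apply h1.mono
    · rw [e1]; omega
    · have : i + 1 - i₀ = (i - i₀) + 1 := by omega
      rw [this]
      omega

theorem chain_topV (κ K Γ ρ P : ℕ) (hκ : 18 ≤ κ) (Uv Wv : Finset ℕ) (hU : UniV κ ρ P Uv Wv)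
    (hPΓ : P ∣ Γ) (i₀ j f₁ : ℕ) (hi₀ : 54 * κ + 145 ≤ 2 ^ i₀) (hij : i₀ ≤ j)
    (hj : 2 * 2 ^ j ≤ ρ) (hjκ : 2 * j + 3 ≤ κ) (hSt₀ : StV κ K Γ (4 * 2 ^ i₀ + 8) f₁) :
    StV κ K Γ (8 * 2 ^ (i₀ + j)) (f₁ + 3792 * j + 7584 * 2 ^ i₀) := by
  have hSt := phasesV κ K Γ ρ P hκ Uv Wv hU hPΓ i₀ j f₁ hi₀ hj hjκ hSt₀ j hij le_rfl
  have hi2 : 54 * κ + 145 ≤ 2 ^ j := hi₀.trans (Nat.pow_le_pow_right (by norm_num) hij)
  obtain ⟨p1, p2, p3, p4, p5⟩ := phase_params κ j hi2 (by omega)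
  have hpow2 : 2 * 2 ^ j ≤ 2 ^ κ := by
    calc 2 * 2 ^ j = 2 ^ (j + 1) := by ring
      _ ≤ 2 ^ κ := Nat.pow_le_pow_right (by norm_num) (by omega)
  have h1 := chain_iterV κ K Γ ρ P Uv Wv hU hPΓ (2 ^ j) (eK κ j) (rK κ j) hj hpow2
    (two_pow_le_choose κ j (by omega)) p1 p2 _ _ hSt (by omega) (2 * 2 ^ i₀ * nK κ j)
  have hn := nK_le κ j hκ hjκ
  apply h1.mono
  · have e1 : 8 * 2 ^ (i₀ + j) = 2 * 2 ^ i₀ * (4 * 2 ^ j) := by rw [pow_add]; ring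
    have e2 : 2 * 2 ^ i₀ * nK κ j * rK κ j = 2 * 2 ^ i₀ * (nK κ j * rK κ j) := by ring
    rw [e1, e2]
    have := Nat.mul_le_mul_left (2 * 2 ^ i₀) p5
    omega
  · have h3 : 2 * 2 ^ i₀ * nK κ j ≤ 2 * 2 ^ i₀ * 237 := Nat.mul_le_mul_left _ hn
    have h4 : 3792 * (j - i₀) ≤ 3792 * j := Nat.mul_le_mul_left _ (by omega)
    omega

end Vale.Agent.Lib.P012b
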