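import Mathlib
import Vale.Agent.Lib.P012.Defs
import Vale.Agent.Lib.P012.Defs2
import Vale.Agent.Lib.P012.BaseParams
import Vale.Agent.Lib.P012.Epoch
import Vale.Agent.Lib.P012.Upto
import Vale.Agent.Lib.P012b.Atoms
import Vale.Agent.Lib.P012b.ChainV

/-!
# P012 (third bound): existence of a block system with `O(k)` terms
-/

namespace Vale.Agent.Lib.P012b

open Finset Vale.Agent.Lib.P012

theorem base_params2 (κ : ℕ) (hκ : 30 ≤ κ) : ∃ i₀ k' : ℕ, 54 * κ + 145 ≤ 2 ^ i₀ ∧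
    2 ^ i₀ < 2 * (54 * κ + 145) ∧
    (9 * κ + 24) * (4 * 2 ^ i₀ + 8) ≤ 2 ^ k' ∧ 10 ≤ k' ∧ k' ^ 2 ≤ 40 * κ := by
  obtain ⟨i₁, k', b1, -, b3, b4, -, b6⟩ := base_params κ hκ
  obtain ⟨c, hc⟩ : ∃ c, c = 54 * κ + 145 := ⟨_, rfl⟩
  rw [← hc] at b1 ⊢
  obtain ⟨i₀, hi0⟩ : ∃ i, i = Nat.clog 2 c := ⟨_, rfl⟩
  have h1 : c ≤ 2 ^ i₀ := by rw [hi0]; exact Nat.le_pow_clog (by norm_num) _
  have h2 : 2 ^ (i₀ - 1) < c := by
    rw [hi0]; exact Nat.pow_pred_clog_lt_self (by norm_num) (by omega)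
  have hi0pos : 1 ≤ i₀ := by
    by_contra hcon
    have : i₀ = 0 := by omega
    rw [this] at h1
    omega
  have h2' : 2 ^ i₀ < 2 * c := by
    have : 2 ^ i₀ = 2 * 2 ^ (i₀ - 1) := by
      conv_lhs => rw [show i₀ = (i₀ - 1) + 1 by omega]
      ring
    omega
  have hle : i₀ ≤ i₁ := by
    rw [hi0]; exact (Nat.clog_le_iff_le_pow (by norm_num)).2 b1
  have hpow : 2 ^ i₀ ≤ 2 ^ i₁ := Nat.pow_le_pow_right (by norm_num) hle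
  refine ⟨i₀, k', h1, h2', le_trans ?_ b3, b4, b6⟩
  exact Nat.mul_le_mul_left _ (by omega)

theorem sq_bound (n : ℕ) : 4 * (108 * (n + 30) + 307) ^ 2 ≤ 2 ^ (n + 30) := by
  induction n with
  | zero => norm_num
  | succ n ih =>
    have e : 2 ^ (n + 1 + 30) = 2 * 2 ^ (n + 30) := by ring
    rw [e]
    obtain ⟨t, ht⟩ : ∃ t, t = 108 * (n + 30) + 307 := ⟨_, rfl⟩
    have e2 : 108 * (n + 1 + 30) + 307 = t + 108 := by rw [ht]; ring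
    rw [e2]
    rw [← ht] at ih
    have ht2 : 3547 ≤ t := by omega
    have h3 : (t + 108) ^ 2 ≤ 2 * t ^ 2 := by nlinarith
    omega

theorem blk_exists : ∃ f₀ : ℕ, ∀ k₁ K : ℕ, 30 ≤ k₁ → ∃ (M Γ f : ℕ), 1 ≤ Γ ∧
    Γ ≤ (2 ^ (18 * k₁ + 48)) ^ (2 * 2 ^ k₁) ∧ (2 ^ (18 * k₁ + 51)) ^ (8 * 2 ^ k₁) ≤ M ∧
    Blk K (Γ * M) M f ∧ f ≤ f₀ + 1665936 * k₁ + 4692576 := by
  obtain ⟨f₀, h₀⟩ := all_good
  refine ⟨f₀, ?_⟩
  intro k₁ K hk₁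
  obtain ⟨κ, hκ⟩ : ∃ κ, κ = 2 * k₁ + 3 := ⟨_, rfl⟩
  obtain ⟨i₀, k', b1, b2, b3, b4, b6⟩ := base_params2 κ (by omega)
  obtain ⟨Pb, fb, hGood, hfb⟩ := h₀ k' b4
  obtain ⟨hPb, hc1, hc2, hrep⟩ := hGood
  -- `2 * i₀ ≤ k₁`
  have hi0 : 2 * i₀ ≤ k₁ := by
    obtain ⟨n, rfl⟩ : ∃ n, k₁ = n + 30 := ⟨k₁ - 30, by omega⟩
    have h1 := sq_bound n
    have h2 : 2 ^ i₀ < 2 * (108 * (n + 30) + 307) := by
      have : 54 * κ + 145 = 108 * (n + 30) + 307 := by rw [hκ]; ring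
      rw [← this]; exact b2
    have h3 : 2 ^ (2 * i₀) < 2 ^ (n + 30) := by
      calc 2 ^ (2 * i₀) = 2 ^ i₀ * 2 ^ i₀ := by rw [two_mul, pow_add]
        _ < (2 * (108 * (n + 30) + 307)) * (2 * (108 * (n + 30) + 307)) :=
            Nat.mul_lt_mul'' h2 h2
        _ = 4 * (108 * (n + 30) + 307) ^ 2 := by ring
        _ ≤ 2 ^ (n + 30) := h1
    exact ((Nat.pow_lt_pow_iff_right (by norm_num)).1 h3).le
  obtain ⟨j, hj⟩ : ∃ j, j = k₁ - i₀ := ⟨_, rfl⟩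
  have hij : i₀ + j = k₁ := by omega
  obtain ⟨W, hW⟩ : ∃ W, W = 2 ^ k₁ := ⟨_, rfl⟩
  have hWsplit : W = 2 ^ i₀ * 2 ^ j := by rw [hW, ← hij, pow_add]
  have hW2 : 2 ≤ W := by
    rw [hW]
    calc 2 = 2 ^ 1 := by norm_num
      _ ≤ 2 ^ k₁ := Nat.pow_le_pow_right (by norm_num) (by omega)
  -- the real pool
  obtain ⟨Q, hQ⟩ : ∃ Q, Q = ((Finset.Ioc (2 ^ (9 * k₁ + 24)) (2 ^ (18 * k₁ + 48))).filter Nat.Prime)
      \ (∅ : Finset ℕ) := ⟨_, rfl⟩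
  have hQcard := pool_card k₁ ∅ (by simp)
  rw [← hQ] at hQcard
  have hQmem : ∀ ℓ ∈ Q, ℓ.Prime ∧ ℓ ≤ 2 ^ (18 * k₁ + 48) := by
    intro ℓ hℓ
    rw [hQ, Finset.mem_sdiff, Finset.mem_filter, Finset.mem_Ioc] at hℓ
    exact ⟨hℓ.1.2, hℓ.1.1.2⟩
  have hQ2 : 2 * 2 ^ k₁ ≤ Q.card := by
    have h1 : ((2 * 2 ^ k₁ : ℕ) : ℝ) ≤ (Q.card : ℝ) := by
      refine le_trans ?_ ((pool_two_rk k₁).trans hQcard)
      push_cast
      exact le_rfl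
    exact_mod_cast h1
  obtain ⟨Us, hUsQ, hUsc⟩ := Finset.exists_subset_card_eq (s := Q) (n := W) (by omega)
  have hUs : ∀ p ∈ Us, p.Prime ∧ p ≤ 2 ^ (9 * κ + 24) := by
    intro p hp
    refine ⟨(hQmem p (hUsQ hp)).1, (hQmem p (hUsQ hp)).2.trans ?_⟩
    exact Nat.pow_le_pow_right (by norm_num) (by omega)
  have hWκ : W ≤ 2 ^ κ := by
    rw [hW]; exact Nat.pow_le_pow_right (by norm_num) (by omega)
  have hρ : 4 + (2 * 2 ^ j) * (54 * κ + 145) ≤ 4 * W := by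
    have h1 : (2 * 2 ^ j) * (54 * κ + 145) ≤ (2 * 2 ^ j) * 2 ^ i₀ := Nat.mul_le_mul_left _ b1
    have h2 : (2 * 2 ^ j) * 2 ^ i₀ = 2 * W := by rw [hWsplit]; ring
    omega
  obtain ⟨G, hG, hGc, hatom⟩ := atoms_exist κ W (2 * 2 ^ j) Us hUs hUsc hWκ hρ
  obtain ⟨U, hU⟩ : ∃ U, U = ∏ p ∈ Us, p := ⟨_, rfl⟩
  rw [← hU] at hatom
  have hU0 : 0 < U := by rw [hU]; exact Finset.prod_pos (fun p hp => (hUs p hp).1.pos)
  have h2u : 2 * 2 ^ (κ - 1) = 2 ^ κ := by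
    obtain ⟨l, rfl⟩ : ∃ l, κ = l + 1 := ⟨κ - 1, by omega⟩
    simp only [Nat.add_sub_cancel]
    ring
  obtain ⟨Uv, hUvG, hUvc⟩ := Finset.exists_subset_card_eq (s := G) (n := 2 ^ (κ - 1)) (by omega)
  have hUni : UniV κ (2 * 2 ^ j) (U * U) Uv (G \ Uv) := by
    refine ⟨fun p hp => ⟨(hG p (hUvG hp)).1, (hG p (hUvG hp)).2.2⟩,
      fun p hp => ⟨(hG p (Finset.sdiff_subset hp)).1, (hG p (Finset.sdiff_subset hp)).2.2⟩,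
      Finset.disjoint_sdiff, hUvc, ?_, ?_⟩
    · rw [Finset.card_sdiff_of_subset hUvG]; omega
    · intro τ hτ hτc
      apply hatom τ _ hτc
      rw [Finset.union_sdiff_of_subset hUvG] at hτ
      exact hτ
  -- the base of the chain
  obtain ⟨M₀, hM₀⟩ : ∃ M₀, M₀ = ∏ p ∈ Pb, p := ⟨_, rfl⟩
  rw [← hM₀] at hrep
  have hSt₀ : StV κ K (U * U) (4 * 2 ^ i₀ + 8) fb := by
    refine ⟨M₀, ?_, (Blk.of_repUpTo hrep.upTo).mono_dvd (Dvd.intro_left _ rfl)⟩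
    calc (2 ^ (9 * κ + 24)) ^ (4 * 2 ^ i₀ + 8) = 2 ^ ((9 * κ + 24) * (4 * 2 ^ i₀ + 8)) := by
          rw [← pow_mul]
      _ ≤ 2 ^ (2 ^ k') := Nat.pow_le_pow_right (by norm_num) b3
      _ ≤ 2 ^ Pb.card := Nat.pow_le_pow_right (by norm_num) (by omega)
      _ ≤ M₀ := by
          rw [hM₀]
          exact Finset.pow_card_le_prod _ _ _ (fun p hp => (hPb p hp).1.two_le)
  obtain ⟨M, hM, hblk⟩ := chain_topV κ K (U * U) (2 * 2 ^ j) (U * U) (by omega) Uv (G \ Uv) hUni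
    dvd_rfl i₀ j fb b1 (by omega) le_rfl (by omega) hSt₀
  refine ⟨M, U * U, _, Nat.mul_pos hU0 hU0, ?_, ?_, hblk, ?_⟩
  · have h1 : U ≤ (2 ^ (18 * k₁ + 48)) ^ W := by
      rw [hU, ← hUsc]
      exact Finset.prod_le_pow_card _ _ _ (fun p hp => (hQmem p (hUsQ hp)).2)
    calc U * U ≤ (2 ^ (18 * k₁ + 48)) ^ W * (2 ^ (18 * k₁ + 48)) ^ W := Nat.mul_le_mul h1 h1
      _ = (2 ^ (18 * k₁ + 48)) ^ (2 * 2 ^ k₁) := by rw [← pow_add, hW, two_mul]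
  · have e1 : 9 * κ + 24 = 18 * k₁ + 51 := by rw [hκ]; ring
    rw [hij, e1] at hM
    exact hM
  · have h1 : 300 * k' ^ 2 ≤ 300 * (40 * κ) := Nat.mul_le_mul_left _ b6
    have h2 : j ≤ k₁ := by omega
    omega

end Vale.Agent.Lib.P012b
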