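import Mathlib
import Vale.Agent.Lib.P012.Defs
import Vale.Agent.Lib.P012.Greedy
import Vale.Agent.Lib.P012.FinalNumeric
import Vale.Agent.Lib.P012b.Exists

/-!
# P012 (third bound): `N(b) ≪ log log b`
-/

namespace Vale.Agent.Lib.P012b

open Finset Vale.Agent.Lib.P012

theorem sq_le_two_pow (n : ℕ) (hn : 4 ≤ n) : n ^ 2 ≤ 2 ^ n := by
  induction n, hn using Nat.le_induction with
  | base => norm_num
  | succ n hn ih =>
    have e : 2 ^ (n + 1) = 2 * 2 ^ n := by ring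
    rw [e]
    nlinarith

theorem lin_le_two_pow' (a c n : ℕ) (ha : a ≤ n) (hc : c + 1 ≤ n) (hn : 4 ≤ n) :
    a + c * n ≤ 2 ^ n := by
  have h1 := sq_le_two_pow n hn
  nlinarith

theorem size1 (k₁ K Γ : ℕ) (hk : 11 ≤ k₁) (hK : K ≤ 2 ^ k₁)
    (hΓ : Γ ≤ (2 ^ (18 * k₁ + 48)) ^ (2 * 2 ^ k₁)) : 2 ^ K * Γ ≤ 2 ^ (2 ^ (2 * k₁)) := by
  have h1 : 36 * k₁ + 97 ≤ 2 ^ k₁ := by
    obtain ⟨n, rfl⟩ : ∃ n, k₁ = n + 11 := ⟨k₁ - 11, by omega⟩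
    clear hk hK hΓ
    induction n with
    | zero => norm_num
    | succ n ih =>
      have e : 2 ^ (n + 1 + 11) = 2 * 2 ^ (n + 11) := by ring
      omega
  calc 2 ^ K * Γ ≤ 2 ^ (2 ^ k₁) * (2 ^ (18 * k₁ + 48)) ^ (2 * 2 ^ k₁) :=
        Nat.mul_le_mul (Nat.pow_le_pow_right (by norm_num) hK) hΓ
    _ = 2 ^ ((36 * k₁ + 97) * 2 ^ k₁) := by
        rw [← pow_mul, ← pow_add]
        congr 1
        ring
    _ ≤ 2 ^ (2 ^ (2 * k₁)) := by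
        apply Nat.pow_le_pow_right (by norm_num)
        rw [two_mul, pow_add]
        exact Nat.mul_le_mul_right _ h1

theorem size2 (k k₁ K b Γ : ℕ) (hkk : k ≤ k₁) (hK : K ≤ 2 ^ k₁) (hb : b ≤ 2 ^ (2 ^ k))
    (hΓ : Γ ≤ (2 ^ (18 * k₁ + 48)) ^ (2 * 2 ^ k₁)) :
    2 * b * (2 ^ K * Γ) ^ 2 ≤ (2 ^ (18 * k₁ + 51)) ^ (8 * 2 ^ k₁) := by
  have hb' : b ≤ 2 ^ (2 ^ k₁) :=
    hb.trans (Nat.pow_le_pow_right (by norm_num) (Nat.pow_le_pow_right (by norm_num) hkk))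
  have hX : 2 ^ K * Γ ≤ 2 ^ (2 ^ k₁) * (2 ^ (18 * k₁ + 48)) ^ (2 * 2 ^ k₁) :=
    Nat.mul_le_mul (Nat.pow_le_pow_right (by norm_num) hK) hΓ
  calc 2 * b * (2 ^ K * Γ) ^ 2
      ≤ 2 * 2 ^ (2 ^ k₁) * (2 ^ (2 ^ k₁) * (2 ^ (18 * k₁ + 48)) ^ (2 * 2 ^ k₁)) ^ 2 :=
        Nat.mul_le_mul (Nat.mul_le_mul_left _ hb') (Nat.pow_le_pow_left hX 2)
    _ = 2 ^ (1 + 2 ^ k₁ + (2 ^ k₁ + (18 * k₁ + 48) * (2 * 2 ^ k₁)) * 2) := by
        rw [← pow_mul, ← pow_add, ← pow_mul, pow_add, pow_add, pow_one]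
    _ ≤ 2 ^ ((18 * k₁ + 51) * (8 * 2 ^ k₁)) := by
        apply Nat.pow_le_pow_right (by norm_num)
        have h1 : 1 ≤ 2 ^ k₁ := Nat.one_le_two_pow
        nlinarith
    _ = (2 ^ (18 * k₁ + 51)) ^ (8 * 2 ^ k₁) := by rw [← pow_mul]

/-- **Main theorem**: `N(b) ≪ log log b`. -/
theorem main_bound3 : ∃ C : ℝ, ∀ a b : ℕ, a < b → 16 ≤ b →
    ∃ S : Finset ℕ, (∀ n ∈ S, 2 ≤ n) ∧ ∑ n ∈ S, (1 / (n : ℚ)) = (a : ℚ) / b ∧
      (S.card : ℝ) ≤ C * Real.log (Real.log b) := by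
  obtain ⟨f₀, h₀⟩ := blk_exists
  obtain ⟨n₀, hn₀⟩ : ∃ n₀, n₀ = 2 * f₀ + 9385152 := ⟨_, rfl⟩
  refine ⟨3331874 * 15 + (3331874 * n₀ + 2 * f₀ + 9385153) * (3 / 2), ?_⟩
  intro a b hab hb
  obtain ⟨k, hk10, hbk, hkL⟩ := final_numeric b hb
  obtain ⟨k₁, hk₁⟩ : ∃ k₁, k₁ = k + n₀ := ⟨_, rfl⟩
  obtain ⟨K, hK⟩ : ∃ K, K = 2 * (f₀ + 1665936 * k₁ + 4692576) := ⟨_, rfl⟩
  have hKle : K ≤ 2 ^ k₁ := by
    have h1 := lin_le_two_pow' (2 * f₀ + 9385152) 3331872 k₁ (by omega) (by omega) (by omega)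
    omega
  obtain ⟨M, Γ, f, hΓ1, hΓ2, hM, hblk, hf⟩ := h₀ k₁ K (by omega)
  obtain ⟨X, hX⟩ : ∃ X, X = 2 ^ K * Γ := ⟨_, rfl⟩
  have hX1 : 1 ≤ X := by
    rw [hX]; exact Nat.mul_pos (Nat.two_pow_pos K) hΓ1
  obtain ⟨F, p', c', hFc, hF, hc'0, hp'X, hc'le, hsum⟩ := greedy_full (2 * k₁) a b X hab hX1
    (by rw [hX]; exact size1 k₁ K Γ (by omega) hKle hΓ2)
  have hc'M : c' ≤ M := hc'le.trans (by
    rw [hX]; exact (size2 k k₁ K b Γ (by omega) hKle hbk hΓ2).trans hM)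
  have hM0 : 0 < M := lt_of_lt_of_le hc'0 hc'M
  have htail := Blk.tail hblk (Nat.mul_pos hΓ1 hM0) hc'0 hc'M (by
    calc p' * (2 ^ K * (Γ * M)) = M * (p' * X) := by rw [hX]; ring
      _ ≤ M * c' := Nat.mul_le_mul_left _ hp'X.le)
  obtain ⟨S, hScard, hSpos, hSsum⟩ := htail.finset (by omega)
  have hS1 : ∀ n ∈ S, c' ≤ n * p' := by
    intro n hn
    have h1 : (1 : ℚ) / (n : ℚ) ≤ ∑ x ∈ S, (1 : ℚ) / (x : ℚ) :=
      Finset.single_le_sum (f := fun x : ℕ => (1 : ℚ) / (x : ℚ)) (fun x _ => by positivity) hn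
    rw [hSsum] at h1
    have hnq : (0 : ℚ) < (n : ℚ) := by exact_mod_cast hSpos n hn
    have hcq : (0 : ℚ) < (c' : ℚ) := by exact_mod_cast hc'0
    rw [div_le_div_iff₀ hnq hcq] at h1
    have h2 : (c' : ℚ) ≤ (n : ℚ) * (p' : ℚ) := by linarith
    exact_mod_cast h2
  have hdisj : Disjoint F S := by
    rw [Finset.disjoint_left]
    intro n hnF hnS
    have h1 := (hF n hnF).2
    have h2 := hS1 n hnS
    rw [mul_comm] at h2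
    omega
  refine ⟨F ∪ S, ?_, ?_, ?_⟩
  · intro n hn
    rcases Finset.mem_union.1 hn with hn | hn
    · exact (hF n hn).1
    · have h2 := hS1 n hn
      have h3 : p' * X < n * p' := lt_of_lt_of_le hp'X h2
      rw [mul_comm n p'] at h3
      have h4 : X < n := lt_of_mul_lt_mul_left h3 (Nat.zero_le _)
      omega
  · rw [Finset.sum_union hdisj, hSsum, hsum]
  · have hcard : (F ∪ S).card ≤ 3331874 * k + (3331874 * n₀ + 2 * f₀ + 9385153) := by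
      have h1 : (F ∪ S).card ≤ (2 * k₁ + 1) + 2 * f :=
        (Finset.card_union_le _ _).trans (Nat.add_le_add hFc hScard)
      omega
    have hcardR : ((F ∪ S).card : ℝ) ≤ 3331874 * (k : ℝ) + (3331874 * n₀ + 2 * f₀ + 9385153) := by
      exact_mod_cast hcard
    have hk10' : (10 : ℝ) ≤ k := by exact_mod_cast hk10
    set L := Real.log (Real.log b) with hL
    have hL1 : (2 : ℝ) / 3 ≤ L := by linarith
    have hc0 : (0 : ℝ) ≤ 3331874 * (n₀ : ℝ) + 2 * f₀ + 9385153 := by positivity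
    nlinarith

end Vale.Agent.Lib.P012b
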